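import Crest.Agent.R187.KD1
import Crest.Agent.R187.KD2
import Crest.Agent.R187.KD3

/-! Kernel checks of the tables. -/

set_option autoImplicit false
set_option Elab.async false

namespace Crest.Agent.R187.K

theorem cS2 :
    both (chkIn 53 150 159 6 39 39 pthinS 23 9) (chkL2 dS2.get4) = true := by
  decide +kernel

theorem cL1_0 :
    chkL 48 90 99 39 0 (pfull 9) (dS1.hd.getS 0) (dS1.tl.get4 0) 0 22 = true := by
  decide +kernel

theorem cL1_1 :
    chkL 48 90 99 39 6 (pfull 15) (dS1.hd.getS 1) (dS1.tl.get4 1) 0 22 = true := by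
  decide +kernel

theorem cL1_2 :
    chkL 48 90 99 39 12 (pfull 21) (dS1.hd.getS 2) (dS1.tl.get4 2) 0 22 = true := by
  decide +kernel

theorem cL1_3 :
    chkL 48 90 99 39 18 (pfull 27) (dS1.hd.getS 3) (dS1.tl.get4 3) 0 22 = true := by
  decide +kernel

theorem cL1_4 :
    chkL 48 90 99 39 24 (pfull 33) (dS1.hd.getS 4) (dS1.tl.get4 4) 0 22 = true := by
  decide +kernel

theorem cL1_5 :
    chkL 48 90 99 39 30 (pfull 39) (dS1.hd.getS 5) (dS1.tl.get4 5) 0 22 = true := by
  decide +kernel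

theorem cL1_6 :
    chkL 48 90 99 39 36 (pfull 45) (dS1.hd.getS 6) (dS1.tl.get4 6) 0 22 = true := by
  decide +kernel

theorem cL1_7 :
    chkL 48 90 99 39 42 (pfull 51) (dS1.hd.getS 7) (dS1.tl.get4 7) 0 22 = true := by
  decide +kernel

theorem cL1_8 :
    chkL 48 90 99 39 48 (pfull 57) (dS1.hd.getS 8) (dS1.tl.get4 8) 0 22 = true := by
  decide +kernel

theorem cL1_9 :
    chkL 48 90 99 39 54 (pfull 63) (dS1.hd.getS 9) (dS1.tl.get4 9) 0 22 = true := by
  decide +kernel

theorem cL1_10 :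
    chkL 48 90 99 39 60 (pfull 69) (dS1.hd.getS 10) (dS1.tl.get4 10) 0 22 = true := by
  decide +kernel

theorem cL1_11 :
    chkL 48 90 99 39 66 (pfull 75) (dS1.hd.getS 11) (dS1.tl.get4 11) 0 22 = true := by
  decide +kernel

theorem cL1_12 :
    chkL 48 90 99 39 72 (pfull 81) (dS1.hd.getS 12) (dS1.tl.get4 12) 0 22 = true := by
  decide +kernel

theorem cL1_13 :
    chkL 48 90 99 39 78 (pfull 87) (dS1.hd.getS 13) (dS1.tl.get4 13) 0 22 = true := by
  decide +kernel

theorem cL1_14 :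
    chkL 48 90 99 39 84 (pfull 93) (dS1.hd.getS 14) (dS1.tl.get4 14) 0 22 = true := by
  decide +kernel

theorem cH10 :
    both (chkIn 23 46 55 10 3 7 (pfour 48) 3 13)
      (chkP (t0f 23 7 10 (famT 23 46 55 10 7 4 4)) 40 10 17 dH10.get2 13) = true := by
  decide +kernel

theorem cH11 :
    both (chkIn 23 50 59 11 3 7 (pfour 52) 3 14)
      (chkP (t0f 23 7 11 (famT 23 50 59 11 7 4 4)) 44 11 17 dH11.get2 14) = true := by
  decide +kernel

theorem cH12 :
    both (chkIn 23 54 63 12 3 7 (pfour 56) 3 15)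
      (chkP (t0f 23 7 12 (famT 23 54 63 12 7 4 4)) 48 12 17 dH12.get2 16) = true := by
  decide +kernel

theorem cH13 :
    both (chkIn 23 58 67 13 3 7 (pfour 60) 3 16)
      (chkP (t0f 23 7 13 (famT 23 58 67 13 7 4 4)) 52 13 17 dH13.get2 17) = true := by
  decide +kernel

theorem cH14 :
    both (chkIn 23 62 71 14 3 7 (pfour 64) 3 17)
      (chkP (t0f 23 7 14 (famT 23 62 71 14 7 4 4)) 56 14 17 dH14.get2 18) = true := by
  decide +kernel

theorem cH15 :
    both (chkIn 23 66 75 15 3 7 (pfour 68) 3 18)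
      (chkP (t0f 23 7 15 (famT 23 66 75 15 7 4 4)) 60 15 17 dH15.get2 19) = true := by
  decide +kernel

theorem cH16 :
    both (chkIn 23 70 79 16 3 7 (pfour 72) 3 19)
      (chkP (t0f 23 7 16 (famT 23 70 79 16 7 4 4)) 64 16 17 dH16.get2 21) = true := by
  decide +kernel

theorem cH17 :
    both (chkIn 23 74 83 17 3 7 (pfour 76) 3 20)
      (chkP (t0f 23 7 17 (famT 23 74 83 17 7 4 4)) 68 17 17 dH17.get2 22) = true := by
  decide +kernel

theorem cH18 :
    both (chkIn 23 78 87 18 3 7 (pfour 80) 3 21)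
      (chkP (t0f 23 7 18 (famT 23 78 87 18 7 4 4)) 72 18 17 dH18.get2 23) = true := by
  decide +kernel

theorem cH19 :
    both (chkIn 23 82 91 19 3 7 (pfour 84) 3 22)
      (chkP (t0f 23 7 19 (famT 23 82 91 19 7 4 4)) 76 19 17 dH19.get2 24) = true := by
  decide +kernel

theorem cH20 :
    both (chkIn 23 86 95 20 3 7 (pfour 88) 3 23)
      (chkP (t0f 23 7 20 (famT 23 86 95 20 7 4 4)) 80 20 17 dH20.get2 26) = true := by
  decide +kernel

theorem cH21 :
    both (chkIn 23 90 99 21 3 7 (pfour 92) 3 24)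
      (chkP (t0f 23 7 21 (famT 23 90 99 21 7 4 4)) 84 21 17 dH21.get2 27) = true := by
  decide +kernel

theorem cH22 :
    both (chkIn 23 94 103 22 3 7 (pfour 96) 3 25)
      (chkP (t0f 23 7 22 (famT 23 94 103 22 7 4 4)) 88 22 17 dH22.get2 28) = true := by
  decide +kernel

theorem cH23 :
    both (chkIn 23 98 107 23 3 7 (pfour 100) 3 26)
      (chkP (t0f 23 7 23 (famT 23 98 107 23 7 4 4)) 92 23 17 dH23.get2 29) = true := by
  decide +kernel

theorem cH24 :
    both (chkIn 23 102 111 24 3 7 (pfour 104) 3 27)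
      (chkP (t0f 23 7 24 (famT 23 102 111 24 7 4 4)) 96 24 17 dH24.get2 31) = true := by
  decide +kernel


end Crest.Agent.R187.K
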