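import Crest.Agent.R187.KD1
import Crest.Agent.R187.KD2
import Crest.Agent.R187.KD4

/-! Kernel checks of the tables. -/

set_option autoImplicit false
set_option Elab.async false

namespace Crest.Agent.R187.K

theorem cA7 :
    both (chkIn 21 48 57 7 7 12 (pfull 51) 5 13)
      (chkC (lof dS1.tl.get4 dS2.get4) (repack 21 48 57 12 42 (famT 21 48 57 7 12 6 6)) selT dW7 7 0 8) = true := by
  decide +kernel

theorem cA8 :
    both (chkIn 21 54 63 8 7 12 (pfull 57) 5 15)
      (chkC (lof dS1.tl.get4 dS2.get4) (repack 21 54 63 12 48 (famT 21 54 63 8 12 6 6)) selT dW8 8 0 9) = true := by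
  decide +kernel

theorem cA9 :
    both (chkIn 21 60 69 9 7 12 (pfull 63) 5 16)
      (chkC (lof dS1.tl.get4 dS2.get4) (repack 21 60 69 12 54 (famT 21 60 69 9 12 6 6)) selT dW9 9 0 10) = true := by
  decide +kernel

theorem cA10 :
    both (chkIn 35 66 75 10 15 22 pthinA 5 11)
      (chkC (lof dS1.tl.get4 dS2.get4) (repack 35 66 75 22 60 (famT 35 66 75 10 22 6 6)) selA dW10 10 0 11) = true := by
  decide +kernel

theorem cA11 :
    both (chkIn 35 72 81 11 15 22 pthinA 5 11)
      (chkC (lof dS1.tl.get4 dS2.get4) (repack 35 72 81 22 66 (famT 35 72 81 11 22 6 6)) selA dW11 11 0 12) = true := by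
  decide +kernel

theorem cA12 :
    both (chkIn 35 78 87 12 15 22 pthinA 5 11)
      (chkC (lof dS1.tl.get4 dS2.get4) (repack 35 78 87 22 72 (famT 35 78 87 12 22 6 6)) selA dW12 12 0 13) = true := by
  decide +kernel

theorem cA13 :
    both (chkIn 35 84 93 13 15 22 pthinA 5 11)
      (chkC (lof dS1.tl.get4 dS2.get4) (repack 35 84 93 22 78 (famT 35 84 93 13 22 6 6)) selA dW13 13 0 14) = true := by
  decide +kernel

theorem cA14 :
    both (chkIn 35 90 99 14 15 22 pthinA 5 11)
      (chkC (lof dS1.tl.get4 dS2.get4) (repack 35 90 99 22 84 (famT 35 90 99 14 22 6 6)) selA dW14 14 0 15) = true := by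
  decide +kernel

theorem cA15 :
    both (chkIn 35 96 105 15 15 22 pthinA 5 11)
      (chkC (lof dS1.tl.get4 dS2.get4) (repack 35 96 105 22 90 (famT 35 96 105 15 22 6 6)) selA dW15 15 0 16) = true := by
  decide +kernel

theorem cA16 :
    both (chkIn 35 102 111 16 15 22 pthinA 5 11)
      (chkC (lof dS1.tl.get4 dS2.get4) (repack 35 102 111 22 96 (famT 35 102 111 16 22 6 6)) selA dW16 16 0 17) = true := by
  decide +kernel

theorem cA17 :
    both (chkIn 35 108 117 17 15 22 pthinA 5 11)
      (chkC (lof dS1.tl.get4 dS2.get4) (repack 35 108 117 22 102 (famT 35 108 117 17 22 6 6)) selA dW17 17 0 18) = true := by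
  decide +kernel

theorem cA18 :
    both (chkIn 35 114 123 18 15 22 pthinA 5 11)
      (chkC (lof dS1.tl.get4 dS2.get4) (repack 35 114 123 22 108 (famT 35 114 123 18 22 6 6)) selA dW18 18 0 19) = true := by
  decide +kernel

theorem cA19 :
    both (chkIn 35 120 129 19 15 22 pthinA 5 11)
      (chkC (lof dS1.tl.get4 dS2.get4) (repack 35 120 129 22 114 (famT 35 120 129 19 22 6 6)) selA dW19 19 0 20) = true := by
  decide +kernel

theorem cA20 :
    both (chkIn 35 126 135 20 15 22 pthinA 5 11)
      (chkC (lof dS1.tl.get4 dS2.get4) (repack 35 126 135 22 120 (famT 35 126 135 20 22 6 6)) selA dW20 20 0 21) = true := by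
  decide +kernel

theorem cA21 :
    both (chkIn 35 132 141 21 15 22 pthinA 5 11)
      (chkC (lof dS1.tl.get4 dS2.get4) (repack 35 132 141 22 126 (famT 35 132 141 21 22 6 6)) selA dW21 21 0 22) = true := by
  decide +kernel

theorem cA22 :
    both (chkIn 35 138 147 22 15 22 pthinA 5 11)
      (chkC (lof dS1.tl.get4 dS2.get4) (repack 35 138 147 22 132 (famT 35 138 147 22 22 6 6)) selA dW22 22 0 23) = true := by
  decide +kernel

theorem cA23 :
    both (chkIn 35 144 153 23 15 22 pthinA 5 11)
      (chkC (lof dS1.tl.get4 dS2.get4) (repack 35 144 153 22 138 (famT 35 144 153 23 22 6 6)) selA dW23 23 0 24) = true := by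
  decide +kernel

theorem cA24 :
    both (chkIn 35 150 159 24 15 22 pthinA 5 11)
      (chkC (lof dS1.tl.get4 dS2.get4) (repack 35 150 159 22 144 (famT 35 150 159 24 22 6 6)) selA dW24 24 0 25) = true := by
  decide +kernel


end Crest.Agent.R187.K
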